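/-
P355: the dimension count. Six pairwise orthogonal non-zero vectors cannot lie in the
five-dimensional space `{k : Fin 6 → ℝ | ∑ k = 0}`.
-/
import Mathlib.Analysis.InnerProductSpace.PiL2
import Mathlib.LinearAlgebra.Dimension.Finite

namespace Vale.Agent.P355.H152

open Finset

/-- The family of six vectors together with the all-one vector. -/
noncomputable def withOne (v : Fin 6 → Fin 6 → ℝ) : Option (Fin 6) → EuclideanSpace ℝ (Fin 6)
  | none => WithLp.toLp 2 (fun _ => (1 : ℝ))
  | some a => WithLp.toLp 2 (v a)

theorem no_six_orthogonal (v : Fin 6 → Fin 6 → ℝ)
    (hsum : ∀ a, ∑ t, v a t = 0) (hne : ∀ a, v a ≠ 0)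
    (horth : ∀ a b, a ≠ b → ∑ t, v a t * v b t = 0) : False := by
  have hnz : ∀ o, withOne v o ≠ 0 := by
    intro o
    cases o with
    | none =>
      intro h
      have := congrArg (fun w : EuclideanSpace ℝ (Fin 6) => w 0) h
      simp [withOne] at this
    | some a =>
      intro h
      apply hne a
      funext t
      have := congrArg (fun w : EuclideanSpace ℝ (Fin 6) => w t) h
      simpa [withOne] using this
  have hin : Pairwise (fun o o' => inner ℝ (withOne v o) (withOne v o') = 0) := by
    intro o o' hoo
    cases o with
    | none =>
      cases o' with
      | none => exact absurd rfl hoo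
      | some b =>
        simp only [withOne, PiLp.inner_apply]
        simpa using hsum b
    | some a =>
      cases o' with
      | none =>
        simp only [withOne, PiLp.inner_apply]
        simpa using hsum a
      | some b =>
        have hab : a ≠ b := fun h => hoo (by rw [h])
        simp only [withOne, PiLp.inner_apply]
        have := horth a b hab
        simp only [RCLike.inner_apply, conj_trivial]
        calc ∑ t, v b t * v a t = ∑ t, v a t * v b t :=
              Finset.sum_congr rfl (fun t _ => mul_comm _ _)
          _ = 0 := this
  have hli : LinearIndependent ℝ (withOne v) :=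
    linearIndependent_of_ne_zero_of_inner_eq_zero hnz hin
  have hcard := hli.fintype_card_le_finrank
  rw [finrank_euclideanSpace, Fintype.card_option] at hcard
  simp at hcard

end Vale.Agent.P355.H152
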