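/-
P355, block L4 (helper595's positivity argument).

Two real vectors `k`, `l` indexed by a finite type, each with sum zero and exactly one positive
entry (all other entries negative), which are orthogonal and satisfy a non-trivial conic relation
`α / k_t ^ 2 + β / l_t ^ 2 + γ = 0`, do not exist (as soon as there are at least three indices).
-/
import Mathlib.Analysis.SpecialFunctions.Pow.Real
import Mathlib.Tactic

namespace Vale.Agent.P355.H152

open Finset

/-- If `X, W > 0` and `1/X² + 1/W² = 1` then `X W < X + W`. -/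
theorem mul_lt_add_of_inv_sq {X W : ℝ} (hX : 0 < X) (hW : 0 < W)
    (h : 1 / X ^ 2 + 1 / W ^ 2 = 1) : X * W < X + W := by
  have h1 : X ^ 2 + W ^ 2 = X ^ 2 * W ^ 2 := by
    field_simp at h
    nlinarith [h]
  nlinarith [mul_pos hX hW]

theorem one_lt_of_inv_sq {X W : ℝ} (hX : 0 < X) (hW : 0 < W)
    (h : 1 / X ^ 2 + 1 / W ^ 2 = 1) : 1 < X := by
  have h2 : 0 < 1 / W ^ 2 := by positivity
  have h3 : 1 / X ^ 2 < 1 := by linarith
  have h4 : 1 < X ^ 2 := by
    rw [div_lt_one (by positivity)] at h3
    exact h3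
  nlinarith

variable {ι : Type*} [Fintype ι] [DecidableEq ι]

theorem sum_split {i j : ι} (hij : i ≠ j) (f : ι → ℝ) :
    ∑ t, f t = f i + (f j + ∑ t ∈ (univ.erase i).erase j, f t) := by
  rw [Finset.add_sum_erase (univ.erase i) f (by simp [Ne.symm hij]),
    Finset.add_sum_erase univ f (mem_univ i)]

theorem inv_sq_neg {x y : ℝ} (h : 1 / x ^ 2 + 1 / y ^ 2 = 1) :
    1 / (-x) ^ 2 + 1 / (-y) ^ 2 = 1 := by
  rw [neg_sq, neg_sq]; exact h

/-- The normalised case `1 / K² + 1 / L² = 1`. -/
theorem normalized_kills (K L : ι → ℝ) (i j : ι) (hij : i ≠ j)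
    (hK : ∑ t, K t = 0) (hL : ∑ t, L t = 0) (hKL : ∑ t, K t * L t = 0)
    (hi : 0 < K i) (hKi : ∀ t, t ≠ i → K t < 0)
    (hj : 0 < L j) (hLj : ∀ t, t ≠ j → L t < 0)
    (hn : ∀ t, 1 / (K t) ^ 2 + 1 / (L t) ^ 2 = 1) : False := by
  set S : Finset ι := (univ.erase i).erase j with hS
  have hSi : ∀ t ∈ S, t ≠ i := by intro t ht; simp [hS] at ht; exact ht.2
  have hSj : ∀ t ∈ S, t ≠ j := by intro t ht; simp [hS] at ht; exact ht.1
  have hK' := sum_split hij K
  have hL' := sum_split hij L
  have hKL' := sum_split hij (fun t => K t * L t)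
  rw [hK] at hK'
  rw [hL] at hL'
  rw [hKL] at hKL'
  have hKj : K j < 0 := hKi j (Ne.symm hij)
  have hLi : L i < 0 := hLj i hij
  have hLi1 : 1 < -(L i) := by
    have h := hn i
    apply one_lt_of_inv_sq (X := -(L i)) (W := K i) (by linarith) hi
    rw [neg_sq]; linarith
  have hKj1 : 1 < -(K j) := by
    have h := hn j
    apply one_lt_of_inv_sq (X := -(K j)) (W := L j) (by linarith) hj
    rw [neg_sq]; linarith
  have hST : ∀ t ∈ S, K t * L t ≤ -(K t) + -(L t) := by
    intro t ht
    have hkt : K t < 0 := hKi t (hSi t ht)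
    have hlt : L t < 0 := hLj t (hSj t ht)
    have h := mul_lt_add_of_inv_sq (X := -(K t)) (W := -(L t)) (by linarith) (by linarith)
      (inv_sq_neg (hn t))
    have e : -(K t) * -(L t) = K t * L t := by ring
    rw [e] at h
    exact h.le
  have hsum := Finset.sum_le_sum hST
  rw [Finset.sum_add_distrib, Finset.sum_neg_distrib, Finset.sum_neg_distrib] at hsum
  have f1 : K i ≤ K i * (-(L i)) := le_mul_of_one_le_right hi.le hLi1.le
  have f2 : L j ≤ (-(K j)) * L j := le_mul_of_one_le_left hj.le hKj1.le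
  have f1' : K i * (-(L i)) = -(K i * L i) := by ring
  have f2' : (-(K j)) * L j = -(K j * L j) := by ring
  rw [f1'] at f1
  rw [f2'] at f2
  linarith

/-- **Positivity argument.** -/
theorem positivity_kills (k l : ι → ℝ) (i j m : ι) (hmi : m ≠ i) (hmj : m ≠ j)
    (hk : ∑ t, k t = 0) (hl : ∑ t, l t = 0) (hkl : ∑ t, k t * l t = 0)
    (hi : 0 < k i) (hki : ∀ t, t ≠ i → k t < 0)
    (hj : 0 < l j) (hlj : ∀ t, t ≠ j → l t < 0)
    (α β γ : ℝ) (h0 : ¬ (α = 0 ∧ β = 0 ∧ γ = 0))
    (hc : ∀ t, α / (k t) ^ 2 + β / (l t) ^ 2 + γ = 0) : False := by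
  by_cases hij : i = j
  · subst hij
    have hpos : 0 < ∑ t, k t * l t := by
      apply Finset.sum_pos
      · intro t _
        by_cases ht : t = i
        · subst ht; exact mul_pos hi hj
        · exact mul_pos_of_neg_of_neg (hki t ht) (hlj t ht)
      · exact ⟨i, mem_univ i⟩
    linarith
  · set S : Finset ι := (univ.erase i).erase j with hS
    have hmS : m ∈ S := by simp [hS, hmi, hmj]
    have hSi : ∀ t ∈ S, t ≠ i := by intro t ht; simp [hS] at ht; exact ht.2
    have hSj : ∀ t ∈ S, t ≠ j := by intro t ht; simp [hS] at ht; exact ht.1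
    have hk' := sum_split hij k
    have hl' := sum_split hij l
    rw [hk] at hk'
    rw [hl] at hl'
    have hSk : ∑ t ∈ S, k t < 0 := by
      have : 0 < ∑ t ∈ S, -(k t) :=
        Finset.sum_pos (fun t ht => by linarith [hki t (hSi t ht)]) ⟨m, hmS⟩
      rw [Finset.sum_neg_distrib] at this
      linarith
    have hSl : ∑ t ∈ S, l t < 0 := by
      have : 0 < ∑ t ∈ S, -(l t) :=
        Finset.sum_pos (fun t ht => by linarith [hlj t (hSj t ht)]) ⟨m, hmS⟩
      rw [Finset.sum_neg_distrib] at this
      linarith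
    have hkj : k j < 0 := hki j (Ne.symm hij)
    have hli : l i < 0 := hlj i hij
    have hkij : -(k j) < k i := by linarith
    have hlij : -(l i) < l j := by linarith
    have hkjne : k j ≠ 0 := hkj.ne
    have hline : l i ≠ 0 := hli.ne
    have hsqk : (k j) ^ 2 < (k i) ^ 2 := by nlinarith
    have hsql : (l i) ^ 2 < (l j) ^ 2 := by nlinarith
    have hkj2 : 0 < (k j) ^ 2 := by positivity
    have hli2 : 0 < (l i) ^ 2 := by positivity
    have hinvk : 1 / (k i) ^ 2 < 1 / (k j) ^ 2 := one_div_lt_one_div_of_lt hkj2 hsqk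
    have hinvl : 1 / (l j) ^ 2 < 1 / (l i) ^ 2 := one_div_lt_one_div_of_lt hli2 hsql
    by_cases hβ : β = 0
    · subst hβ
      have e1 := hc i
      have e2 := hc j
      rw [div_eq_mul_one_div α] at e1 e2
      simp only [zero_div, add_zero] at e1 e2
      have e3 : α * (1 / (k i) ^ 2 - 1 / (k j) ^ 2) = 0 := by linarith
      rcases mul_eq_zero.mp e3 with hα | h
      · subst hα
        apply h0
        refine ⟨rfl, rfl, ?_⟩
        simpa using e1
      · linarith
    · -- normal form `1 / l² = a / k² + b`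
      set a : ℝ := -α / β with ha
      set b : ℝ := -γ / β with hb
      have hnf : ∀ t, 1 / (l t) ^ 2 = a * (1 / (k t) ^ 2) + b := by
        intro t
        have e := hc t
        rw [div_eq_mul_one_div α, div_eq_mul_one_div β] at e
        have hα : α = -a * β := by rw [ha]; field_simp
        have hγ : γ = -b * β := by rw [hb]; field_simp
        rw [hα, hγ] at e
        have e' : β * (1 / (l t) ^ 2 - (a * (1 / (k t) ^ 2) + b)) = 0 := by linear_combination e
        rcases mul_eq_zero.mp e' with h | h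
        · exact absurd h hβ
        · linarith
      by_cases ha0 : 0 ≤ a
      · have e1 := hnf i
        have e2 := hnf j
        have e3 : a * (1 / (k i) ^ 2) ≤ a * (1 / (k j) ^ 2) :=
          mul_le_mul_of_nonneg_left hinvk.le ha0
        linarith
      · push Not at ha0
        -- `c / k² + 1 / l² = b`, `c > 0`, `b > 0`
        obtain ⟨c, hcdef⟩ : ∃ c : ℝ, c = -a := ⟨_, rfl⟩
        have hc0 : 0 < c := by linarith
        have hb0 : 0 < b := by
          have e := hnf i
          have h1 : 0 < 1 / (l i) ^ 2 := by positivity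
          have h2 : 0 < c * (1 / (k i) ^ 2) := by positivity
          have h3 : a * (1 / (k i) ^ 2) = -(c * (1 / (k i) ^ 2)) := by rw [hcdef]; ring
          linarith
        have hs0 : 0 < Real.sqrt (b / c) := Real.sqrt_pos.mpr (by positivity)
        have hr0 : 0 < Real.sqrt b := Real.sqrt_pos.mpr hb0
        have hs2 : (Real.sqrt (b / c)) ^ 2 = b / c := Real.sq_sqrt (by positivity)
        have hr2 : (Real.sqrt b) ^ 2 = b := Real.sq_sqrt hb0.le
        generalize Real.sqrt (b / c) = s at hs0 hs2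
        generalize Real.sqrt b = r at hr0 hr2
        have hkne : ∀ t, k t ≠ 0 := by
          intro t
          by_cases ht : t = i
          · subst ht; exact hi.ne'
          · exact (hki t ht).ne
        have hlne : ∀ t, l t ≠ 0 := by
          intro t
          by_cases ht : t = j
          · subst ht; exact hj.ne'
          · exact (hlj t ht).ne
        refine normalized_kills (fun t => s * k t) (fun t => r * l t) i j hij ?_ ?_ ?_ ?_ ?_ ?_ ?_ ?_
        · rw [← Finset.mul_sum, hk, mul_zero]
        · rw [← Finset.mul_sum, hl, mul_zero]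
        · have : ∀ t, (s * k t) * (r * l t) = (s * r) * (k t * l t) := by intro t; ring
          simp only [this]
          rw [← Finset.mul_sum, hkl, mul_zero]
        · exact mul_pos hs0 hi
        · intro t ht; exact mul_neg_of_pos_of_neg hs0 (hki t ht)
        · exact mul_pos hr0 hj
        · intro t ht; exact mul_neg_of_pos_of_neg hr0 (hlj t ht)
        · intro t
          have hk2 : (k t) ^ 2 ≠ 0 := pow_ne_zero 2 (hkne t)
          have hl2 : (l t) ^ 2 ≠ 0 := pow_ne_zero 2 (hlne t)
          have e := hnf t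
          have e1 : 1 / (s * k t) ^ 2 = (c / b) * (1 / (k t) ^ 2) := by
            rw [mul_pow, hs2]; field_simp
          have e2 : 1 / (r * l t) ^ 2 = (1 / b) * (1 / (l t) ^ 2) := by
            rw [mul_pow, hr2]; field_simp
          rw [e1, e2, e, hcdef]
          field_simp
          ring

/-- The version for six indices used in the MUB problem. -/
theorem positivity_kills_six (k l : Fin 6 → ℝ)
    (hk : ∑ t, k t = 0) (hl : ∑ t, l t = 0) (hkl : ∑ t, k t * l t = 0)
    (hk1 : ∃ i, 0 < k i ∧ ∀ t, t ≠ i → k t < 0)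
    (hl1 : ∃ j, 0 < l j ∧ ∀ t, t ≠ j → l t < 0)
    (α β γ : ℝ) (h0 : ¬ (α = 0 ∧ β = 0 ∧ γ = 0))
    (hc : ∀ t, α / (k t) ^ 2 + β / (l t) ^ 2 + γ = 0) : False := by
  obtain ⟨i, hi, hki⟩ := hk1
  obtain ⟨j, hj, hlj⟩ := hl1
  obtain ⟨m, hmi, hmj⟩ : ∃ m : Fin 6, m ≠ i ∧ m ≠ j := by
    have h : ∀ i j : Fin 6, ∃ m : Fin 6, m ≠ i ∧ m ≠ j := by decide
    exact h i j
  exact positivity_kills k l i j m hmi hmj hk hl hkl hi hki hj hlj α β γ h0 hc

end Vale.Agent.P355.H152
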